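import Vale.Agent.P131.H856.Quasi
import Mathlib.Analysis.InnerProductSpace.Projection.FiniteDimensional

/-!
Density of the quasinilpotent operators with transitive commutant.
-/

namespace Vale.Agent.P131.H856

open Module

section

variable {H : Type*} [NormedAddCommGroup H] [InnerProductSpace ℂ H]

lemma QN.conj {H' : Type*} [NormedAddCommGroup H'] [InnerProductSpace ℂ H']
    {T : H →L[ℂ] H} (h : QN T) (S : H ≃L[ℂ] H') :
    QN ((S : H →L[ℂ] H') ∘L T ∘L (S.symm : H' →L[ℂ] H)) := by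
  intro L hL
  obtain ⟨K, hK⟩ := h L hL
  have hpow : ∀ k : ℕ, ∀ x, (((S : H →L[ℂ] H') ∘L T ∘L (S.symm : H' →L[ℂ] H)) ^ k) x
      = S ((T ^ k) (S.symm x)) := by
    intro k
    induction k with
    | zero => intro x; simp
    | succ k ih =>
      intro x
      rw [pow_succ', pow_succ', ContinuousLinearMap.mul_apply, ih]
      simp
  set a := ‖(S : H →L[ℂ] H')‖ with ha
  set b := ‖(S.symm : H' →L[ℂ] H)‖ with hb
  refine ⟨K + Real.log (a * b + 1), fun k x => ?_⟩
  rw [hpow]
  have h1 : ‖S ((T ^ k) (S.symm x))‖ ≤ a * ‖(T ^ k) (S.symm x)‖ :=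
    (S : H →L[ℂ] H').le_opNorm _
  have h2 : ‖S.symm x‖ ≤ b * ‖x‖ := (S.symm : H' →L[ℂ] H).le_opNorm _
  have hpos : 0 < a * b + 1 := by positivity
  calc ‖S ((T ^ k) (S.symm x))‖ ≤ a * (Real.exp (K - L * k) * (b * ‖x‖)) :=
        h1.trans (mul_le_mul_of_nonneg_left ((hK k _).trans
          (mul_le_mul_of_nonneg_left h2 (Real.exp_pos _).le)) (norm_nonneg _))
    _ = (a * b) * (Real.exp (K - L * k) * ‖x‖) := by ring
    _ ≤ (a * b + 1) * (Real.exp (K - L * k) * ‖x‖) :=
        mul_le_mul_of_nonneg_right (by linarith) (by positivity)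
    _ = Real.exp (K + Real.log (a * b + 1) - L * k) * ‖x‖ := by
        rw [show K + Real.log (a * b + 1) - L * k = (K - L * k) + Real.log (a * b + 1) by ring,
          Real.exp_add, Real.exp_log hpos]
        ring

/-- an automorphism of a finite-dimensional space moving one independent family to another -/
lemma exists_aut {U : Type*} [AddCommGroup U] [Module ℂ U] [FiniteDimensional ℂ U] {N : ℕ}
    {v w : Fin N → U} (hv : LinearIndependent ℂ v) (hw : LinearIndependent ℂ w) :
    ∃ g : U ≃ₗ[ℂ] U, ∀ i, g (v i) = w i := by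
  obtain ⟨C1, hC1⟩ := Submodule.exists_isCompl (Submodule.span ℂ (Set.range v))
  obtain ⟨C2, hC2⟩ := Submodule.exists_isCompl (Submodule.span ℂ (Set.range w))
  have f1 := Submodule.finrank_add_eq_of_isCompl hC1
  have f2 := Submodule.finrank_add_eq_of_isCompl hC2
  rw [finrank_span_eq_card hv] at f1
  rw [finrank_span_eq_card hw] at f2
  let e1 := (Basis.span hv).equiv (Basis.span hw) (Equiv.refl _)
  let e2 : C1 ≃ₗ[ℂ] C2 := LinearEquiv.ofFinrankEq C1 C2 (by omega)
  let g : U ≃ₗ[ℂ] U := (Submodule.prodEquivOfIsCompl _ _ hC1).symm ≪≫ₗ (e1.prodCongr e2)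
    ≪≫ₗ (Submodule.prodEquivOfIsCompl _ _ hC2)
  refine ⟨g, fun i => ?_⟩
  have h1 : (Submodule.prodEquivOfIsCompl _ _ hC1).symm (v i) = (Basis.span hv i, 0) := by
    rw [LinearEquiv.symm_apply_eq, Submodule.coe_prodEquivOfIsCompl']
    simp [Basis.span_apply]
  have h2 : e1 (Basis.span hv i) = Basis.span hw i :=
    Basis.equiv_apply (Basis.span hv) i (Basis.span hw) (Equiv.refl _)
  change (Submodule.prodEquivOfIsCompl _ _ hC2) ((e1.prodCongr e2)
    ((Submodule.prodEquivOfIsCompl _ _ hC1).symm (v i))) = w i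
  rw [h1, LinearEquiv.prodCongr_apply, h2, Submodule.coe_prodEquivOfIsCompl']
  simp [Basis.span_apply]

/-- an automorphism moving one finite independent family to another -/
lemma exists_move [CompleteSpace H] {N : ℕ} {v w : Fin N → H} (hv : LinearIndependent ℂ v)
    (hw : LinearIndependent ℂ w) : ∃ S : H ≃L[ℂ] H, ∀ i, S (v i) = w i := by
  let U : Submodule ℂ H := Submodule.span ℂ (Set.range v) ⊔ Submodule.span ℂ (Set.range w)
  have hvU : ∀ i, v i ∈ U := fun i => Submodule.mem_sup_left (Submodule.subset_span ⟨i, rfl⟩)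
  have hwU : ∀ i, w i ∈ U := fun i => Submodule.mem_sup_right (Submodule.subset_span ⟨i, rfl⟩)
  have fd1 : FiniteDimensional ℂ (Submodule.span ℂ (Set.range v)) :=
    FiniteDimensional.span_of_finite ℂ (Set.finite_range v)
  have fd2 : FiniteDimensional ℂ (Submodule.span ℂ (Set.range w)) :=
    FiniteDimensional.span_of_finite ℂ (Set.finite_range w)
  have fd : FiniteDimensional ℂ U := Submodule.finiteDimensional_sup _ _
  have hv' : LinearIndependent ℂ (fun i => (⟨v i, hvU i⟩ : U)) :=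
    LinearIndependent.of_comp U.subtype (by exact hv)
  have hw' : LinearIndependent ℂ (fun i => (⟨w i, hwU i⟩ : U)) :=
    LinearIndependent.of_comp U.subtype (by exact hw)
  obtain ⟨g, hg⟩ := exists_aut hv' hw'
  let P : H →L[ℂ] U := U.orthogonalProjection
  have hPu : ∀ u : U, P u = u := fun u => U.orthogonalProjection_mem_subspace_eq_self u
  let gL : U →L[ℂ] U := LinearMap.toContinuousLinearMap (g : U →ₗ[ℂ] U)
  let gL' : U →L[ℂ] U := LinearMap.toContinuousLinearMap (g.symm : U →ₗ[ℂ] U)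
  let mk : (U →L[ℂ] U) → (H →L[ℂ] H) := fun a =>
    U.subtypeL ∘L a ∘L P + (ContinuousLinearMap.id ℂ H - U.subtypeL ∘L P)
  have hmk : ∀ a x, mk a x = (a (P x) : H) + (x - (P x : H)) := fun a x => rfl
  have hP : ∀ a x, P (mk a x) = a (P x) := by
    intro a x
    rw [hmk, map_add, map_sub, hPu, hPu, sub_self, add_zero]
  have hcomp : ∀ a b : U →L[ℂ] U, (∀ u, a (b u) = u) → ∀ x, mk a (mk b x) = x := by
    intro a b hab x
    rw [hmk, hP, hab, hmk]
    abel
  refine ⟨ContinuousLinearEquiv.equivOfInverse (mk gL) (mk gL')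
    (hcomp _ _ fun u => g.symm_apply_apply u) (hcomp _ _ fun u => g.apply_symm_apply u),
    fun i => ?_⟩
  change mk gL (v i) = w i
  have h1 : P (v i) = ⟨v i, hvU i⟩ := hPu ⟨v i, hvU i⟩
  rw [hmk, h1]
  have h2 : gL ⟨v i, hvU i⟩ = ⟨w i, hwU i⟩ := hg i
  rw [h2]
  simp

/-- a finite-dimensional subspace of an infinite-dimensional space can be avoided -/
lemma exists_near (hH : ¬ FiniteDimensional ℂ H) (W : Submodule ℂ H) [FiniteDimensional ℂ W]
    (a : H) {ε : ℝ} (hε : 0 < ε) : ∃ z, z ∉ W ∧ ‖z - a‖ < ε := by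
  by_cases ha : a ∈ W
  · obtain ⟨u, hu⟩ : ∃ u, u ∉ W := by
      by_contra hcon
      push Not at hcon
      have : W = ⊤ := (Submodule.eq_top_iff').2 hcon
      apply hH
      have h1 : FiniteDimensional ℂ (⊤ : Submodule ℂ H) := by rw [← this]; infer_instance
      exact Module.finite_def.2 ((Submodule.fg_top (⊤ : Submodule ℂ H)).1
        (Module.finite_def.1 h1))
    have hu0 : 0 < ‖u‖ := norm_pos_iff.2 fun h => hu (h ▸ W.zero_mem)
    refine ⟨a + ((ε / (2 * ‖u‖) : ℝ) : ℂ) • u, fun h => hu ?_, ?_⟩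
    · have h1 : ((ε / (2 * ‖u‖) : ℝ) : ℂ) • u ∈ W := by
        have := W.sub_mem h ha
        rwa [add_sub_cancel_left] at this
      have hne : ((ε / (2 * ‖u‖) : ℝ) : ℂ) ≠ 0 := by
        rw [Complex.ofReal_ne_zero]
        positivity
      exact (W.smul_mem_iff hne).1 h1
    · rw [add_sub_cancel_left, norm_smul, Complex.norm_real, Real.norm_eq_abs,
        abs_of_pos (by positivity)]
      have : ε / (2 * ‖u‖) * ‖u‖ = ε / 2 := by field_simp
      rw [this]
      linarith
  · exact ⟨a, ha, by simpa using hε⟩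

/-- completion of an independent family by vectors close to given ones -/
lemma exists_complete (hH : ¬ FiniteDimensional ℂ H) {n : ℕ} {x : Fin n → H}
    (hx : LinearIndependent ℂ x) (a : ℕ → H) {ε : ℝ} (hε : 0 < ε) (k : ℕ) :
    ∃ w : Fin (n + k) → H, LinearIndependent ℂ w ∧ (∀ i, w (Fin.castAdd k i) = x i) ∧
      ∀ j : Fin k, ‖w (Fin.natAdd n j) - a j‖ < ε := by
  induction k with
  | zero => exact ⟨x, hx, fun i => rfl, fun j => j.elim0⟩
  | succ k ih =>
    obtain ⟨w, hw, h1, h2⟩ := ih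
    have fd : FiniteDimensional ℂ (Submodule.span ℂ (Set.range w)) :=
      FiniteDimensional.span_of_finite ℂ (Set.finite_range w)
    obtain ⟨z, hz, hza⟩ := exists_near hH (Submodule.span ℂ (Set.range w)) (a k) hε
    refine ⟨(Fin.snoc w z : Fin (n + k + 1) → H), ?_, fun i => ?_, fun j => ?_⟩
    · exact linearIndependent_finSnoc.2 ⟨hw, hz⟩
    · have e : (Fin.castAdd (k + 1) i : Fin (n + k + 1)) = Fin.castSucc (Fin.castAdd k i) := rfl
      rw [e, Fin.snoc_castSucc, h1]
    · refine Fin.lastCases ?_ (fun j => ?_) j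
      · have e : (Fin.natAdd n (Fin.last k) : Fin (n + k + 1)) = Fin.last (n + k) := rfl
        rw [e, Fin.snoc_last, Fin.val_last]
        exact hza
      · have e : (Fin.natAdd n (Fin.castSucc j) : Fin (n + k + 1))
            = Fin.castSucc (Fin.natAdd n j) := rfl
        rw [e, Fin.snoc_castSucc, Fin.val_castSucc]
        exact h2 j

/-- density of the similarity orbit -/
theorem orbit_dense [CompleteSpace H] (hH : ¬ FiniteDimensional ℂ H) {T₀ : H →L[ℂ] H}
    (hT₀ : TC T₀) (A : H →L[ℂ] H) (F : Finset H) {ε : ℝ} (hε : 0 < ε) :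
    ∃ S : H ≃L[ℂ] H, ∀ x ∈ F,
      ‖((S : H →L[ℂ] H) ∘L T₀ ∘L (S.symm : H →L[ℂ] H)) x - A x‖ < ε := by
  classical
  let X : Submodule ℂ H := Submodule.span ℂ (F : Set H)
  have fd : FiniteDimensional ℂ X := FiniteDimensional.span_finset ℂ F
  let b := Module.finBasis ℂ X
  set n := Module.finrank ℂ X with hn
  let x : Fin n → H := fun i => (b i : H)
  have hx : LinearIndependent ℂ x := b.linearIndependent.map' X.subtype X.ker_subtype
  let c : H → ℝ := fun f => if h : f ∈ X then ∑ i, ‖b.repr ⟨f, h⟩ i‖ else 0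
  have hc0 : ∀ f, 0 ≤ c f := fun f => by
    change 0 ≤ dite _ _ _
    split_ifs with h
    · exact Finset.sum_nonneg fun i _ => norm_nonneg _
    · exact le_rfl
  set C := ∑ f ∈ F, c f with hC
  have hC0 : 0 ≤ C := Finset.sum_nonneg fun f _ => hc0 f
  obtain ⟨w, hw, hw1, hw2⟩ := exists_complete hH hx
    (fun j => if h : j < n then A (x ⟨j, h⟩) else 0) (ε := ε / (C + 1)) (by positivity) n
  have hnt : Nontrivial H := by
    by_contra h
    rw [not_nontrivial_iff_subsingleton] at h
    exact hH inferInstance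
  obtain ⟨x₀, hx₀⟩ := _root_.exists_ne (0 : H)
  let f : Fin (n + n) → ℕ := Fin.addCases (fun i => 2 * (i : ℕ)) (fun i => 2 * (i : ℕ) + 1)
  have hf : Function.Injective f := by
    intro i j
    refine Fin.addCases (fun i => ?_) (fun i => ?_) i <;>
      refine Fin.addCases (fun j => ?_) (fun j => ?_) j <;>
      simp only [f, Fin.addCases_left, Fin.addCases_right] <;> intro h
    · congr 1; ext; omega
    · omega
    · omega
    · congr 1; ext; omega
  have hv : LinearIndependent ℂ (fun j : Fin (n + n) => (T₀ ^ (f j)) x₀) :=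
    (hT₀.linInd hx₀).comp f hf
  obtain ⟨S, hS⟩ := exists_move hv hw
  refine ⟨S, fun y hy => ?_⟩
  set T := (S : H →L[ℂ] H) ∘L T₀ ∘L (S.symm : H →L[ℂ] H) with hT
  have hTx : ∀ i, ‖T (x i) - A (x i)‖ < ε / (C + 1) := by
    intro i
    have h1 : S.symm (x i) = (T₀ ^ (2 * (i : ℕ))) x₀ := by
      rw [ContinuousLinearEquiv.symm_apply_eq]
      have := hS (Fin.castAdd n i)
      simp only [f, Fin.addCases_left] at this
      rw [this, hw1]
    have h2 : T (x i) = w (Fin.natAdd n i) := by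
      have h3 := hS (Fin.natAdd n i)
      simp only [f, Fin.addCases_right] at h3
      rw [← h3]
      change S (T₀ (S.symm (x i))) = _
      rw [h1, pow_succ', ContinuousLinearMap.mul_apply]
    rw [h2]
    have h3 := hw2 i
    simpa using h3
  have hyX : y ∈ X := Submodule.subset_span hy
  have hrep : y = ∑ i, b.repr ⟨y, hyX⟩ i • x i := by
    have h1 := congrArg (fun u : X => (u : H)) (b.sum_repr ⟨y, hyX⟩)
    simp only [Submodule.coe_sum, Submodule.coe_smul] at h1
    exact h1.symm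
  have hcy : ∑ i, ‖b.repr ⟨y, hyX⟩ i‖ ≤ C := by
    have h1 : c y = ∑ i, ‖b.repr ⟨y, hyX⟩ i‖ := dif_pos hyX
    rw [← h1]
    exact Finset.single_le_sum (fun f _ => hc0 f) hy
  calc ‖T y - A y‖ = ‖∑ i, b.repr ⟨y, hyX⟩ i • (T (x i) - A (x i))‖ := by
        conv_lhs => rw [hrep]
        simp only [map_sum, map_smul, smul_sub, Finset.sum_sub_distrib]
    _ ≤ ∑ i, ‖b.repr ⟨y, hyX⟩ i‖ * (ε / (C + 1)) := by
        refine (norm_sum_le _ _).trans (Finset.sum_le_sum fun i _ => ?_)
        rw [norm_smul]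
        exact mul_le_mul_of_nonneg_left (hTx i).le (norm_nonneg _)
    _ = (∑ i, ‖b.repr ⟨y, hyX⟩ i‖) * (ε / (C + 1)) := by rw [Finset.sum_mul]
    _ ≤ C * (ε / (C + 1)) := mul_le_mul_of_nonneg_right hcy (by positivity)
    _ < ε := by
        rw [mul_div_assoc', div_lt_iff₀ (by positivity)]
        nlinarith

end

/-- existence on every separable infinite-dimensional Hilbert space -/
theorem exists_tc_qn (H : Type*) [NormedAddCommGroup H] [InnerProductSpace ℂ H]
    [CompleteSpace H] [TopologicalSpace.SeparableSpace H] (hH : ¬ FiniteDimensional ℂ H) :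
    ∃ T : H →L[ℂ] H, TC T ∧ QN T := by
  obtain ⟨T, h1, h2⟩ := example_qn
  have hfin := not_finite_of_transitive Hs T h1.1 h1.2
  obtain ⟨e⟩ := exists_equiv Hs H hfin hH
  exact ⟨_, h1.conj e.toContinuousLinearEquiv, h2.conj e.toContinuousLinearEquiv⟩

/-- the density theorem -/
theorem dense_tc_qn (H : Type*) [NormedAddCommGroup H] [InnerProductSpace ℂ H]
    [CompleteSpace H] [TopologicalSpace.SeparableSpace H] (hH : ¬ FiniteDimensional ℂ H)
    (A : H →L[ℂ] H) (F : Finset H) {ε : ℝ} (hε : 0 < ε) :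
    ∃ T : H →L[ℂ] H, TC T ∧ spectrum ℂ T = {0} ∧ ∀ x ∈ F, ‖T x - A x‖ < ε := by
  obtain ⟨T₀, h1, h2⟩ := exists_tc_qn H hH
  obtain ⟨S, hS⟩ := orbit_dense hH h1 A F hε
  have hnt : Nontrivial H := by
    by_contra h
    rw [not_nontrivial_iff_subsingleton] at h
    exact hH inferInstance
  exact ⟨_, h1.conj S, (h2.conj S).spectrum_eq, hS⟩

end Vale.Agent.P131.H856
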