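import Vale.Agent.P131.H856.Sim
import Mathlib.Analysis.Normed.Algebra.GelfandFormula

/-!
The example is quasinilpotent.
-/

namespace Vale.Agent.P131.H856

open MeasureTheory Finset Vale.Agent.P131
open scoped ENNReal

/-- operators with the formula of the example have transitive commutant -/
theorem trans_of_formula {T : Hs →L[ℂ] Hs}
    (hT : ∀ ξ : Hs, ∀ᵐ t : ℝ, ∀ n : ℤ, (T ξ : ℝ × ℤ → ℂ) (t, n) =
      (Real.exp (hp t n - hp t (n - 1)) : ℂ) * (ξ : ℝ × ℤ → ℂ) (t, n - 1)) :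
    ∀ M : Submodule ℂ Hs, IsClosed (M : Set Hs) →
      (∀ A : Hs →L[ℂ] Hs, A ∘L T = T ∘L A → ∀ x ∈ M, A x ∈ M) → M = ⊥ ∨ M = ⊤ := by
  intro M hM hinv
  by_contra hcon
  push Not at hcon
  obtain ⟨hbot, htop⟩ := hcon
  have : CompleteSpace M := hM.completeSpace_coe
  have hperp : Mᗮ ≠ ⊥ := fun h => htop ((Submodule.orthogonal_eq_bot_iff).mp h)
  obtain ⟨η, hη, hη0⟩ := Submodule.exists_mem_ne_zero_of_ne_bot hperp
  obtain ⟨ξ₀, hξ₀, hξ₀0⟩ := Submodule.exists_mem_ne_zero_of_ne_bot hbot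
  obtain ⟨j₀, hj₀⟩ := exists_ne η hη0
  -- moving by dyadic translations
  have hmove : ∀ (ξ : Hs), ξ ∈ M → ∀ i : ℤ, 0 < volume {t : ℝ | (ξ : ℝ × ℤ → ℂ) (t, i) ≠ 0} →
      ∀ V : Set ℝ, MeasurableSet V → 0 < volume V →
      ∃ ζ ∈ M, 0 < volume ({t : ℝ | (ζ : ℝ × ℤ → ℂ) (t, i) ≠ 0} ∩ V) := by
    intro ξ hξ i hi V hV hV0
    obtain ⟨k, N, hkN⟩ := exists_dyadic _ V (measurable_ne ξ i) hV hi hV0
    obtain ⟨C, hC⟩ := hp_dyadic k N
    obtain ⟨ζ, hζM, hζ⟩ := ex_mem_of_op hT hinv MeasurableSet.univ ((k : ℝ) / 2 ^ N) 0 C (by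
      intro t _ n
      rw [sub_zero]
      exact hC t n) hξ
    refine ⟨ζ, hζM, lt_of_lt_of_le hkN (measure_mono_ae ?_)⟩
    filter_upwards [hζ] with t ht htm
    refine ⟨?_, htm.2⟩
    have h1 : (ξ : ℝ × ℤ → ℂ) (t - (k : ℝ) / 2 ^ N, i) ≠ 0 := htm.1
    show (ζ : ℝ × ℤ → ℂ) (t, i) ≠ 0
    rw [ht i, sub_zero]
    simpa using h1
  -- lower bound of the index
  have hlow : ∀ i : ℤ, (∃ ξ ∈ M, 0 < volume {t : ℝ | (ξ : ℝ × ℤ → ℂ) (t, i) ≠ 0}) → j₀ < i := by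
    rintro i ⟨ξ, hξ, hi⟩
    obtain ⟨ζ, hζM, hζ⟩ := hmove ξ hξ i hi _ (measurable_ne η j₀) hj₀
    by_contra hji
    have h1 : volume ({t : ℝ | (ζ : ℝ × ℤ → ℂ) (t, i) ≠ 0} ∩
        {t : ℝ | (η : ℝ × ℤ → ℂ) (t, j₀) ≠ 0}) = 0 := by
      apply measure_mono_null _ (ae_iff.mp (ex_sep hT hinv hζM hη))
      rintro t ⟨ht1, ht2⟩ hall
      exact hji (hall i j₀ ht1 ht2)
    exact hζ.ne' h1
  -- the least index
  obtain ⟨i₁, hi₁, hmin⟩ := Int.exists_least_of_bdd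
    (P := fun i => ∃ ξ ∈ M, 0 < volume {t : ℝ | (ξ : ℝ × ℤ → ℂ) (t, i) ≠ 0})
    ⟨j₀, fun i hi => (hlow i hi).le⟩
    (by
      obtain ⟨i, hi⟩ := exists_ne ξ₀ hξ₀0
      exact ⟨i, ξ₀, hξ₀, hi⟩)
  obtain ⟨ξ, hξ, hi⟩ := hi₁
  obtain ⟨c, E, C, hE, hE0, hEC⟩ := exists_shift
  obtain ⟨ζ, hζM, hζ⟩ := hmove ξ hξ i₁ hi E hE hE0
  have hS : MeasurableSet {t : ℝ | t - c ∈ E} := hE.preimage (measurable_id.sub_const c)
  obtain ⟨ω, hωM, hω⟩ := ex_mem_of_op hT hinv hS c (-1) C (by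
    intro t ht n
    have := hEC (t - c) ht n
    rw [sub_add_cancel] at this
    rwa [sub_neg_eq_add]) hζM
  have hω0 : 0 < volume {t : ℝ | (ω : ℝ × ℤ → ℂ) (t, i₁ - 1) ≠ 0} := by
    have h1 : volume ((fun t : ℝ => t - c) ⁻¹' ({t : ℝ | (ζ : ℝ × ℤ → ℂ) (t, i₁) ≠ 0} ∩ E)) =
        volume ({t : ℝ | (ζ : ℝ × ℤ → ℂ) (t, i₁) ≠ 0} ∩ E) := by
      simp only [sub_eq_add_neg]
      exact measure_preimage_add_right volume (-c) _
    rw [← h1] at hζ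
    refine lt_of_lt_of_le hζ (measure_mono_ae ?_)
    filter_upwards [hω] with t ht htm
    have h2 : (ζ : ℝ × ℤ → ℂ) (t - c, i₁) ≠ 0 := htm.1
    have h3 : t ∈ {t : ℝ | t - c ∈ E} := htm.2
    show (ω : ℝ × ℤ → ℂ) (t, i₁ - 1) ≠ 0
    rw [ht (i₁ - 1), Set.indicator_of_mem h3, sub_neg_eq_add, sub_add_cancel]
    simpa using h2
  have := hmin (i₁ - 1) ⟨ω, hωM, hω0⟩
  omega

/-- superlinear decay of the norms of the powers -/
def QN {H : Type*} [NormedAddCommGroup H] [InnerProductSpace ℂ H] (T : H →L[ℂ] H) : Prop :=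
  ∀ L : ℝ, 0 ≤ L → ∃ K : ℝ, ∀ (k : ℕ) (x : H), ‖(T ^ k) x‖ ≤ Real.exp (K - L * k) * ‖x‖

/-- the drop of the potential -/
theorem hp_drop {L : ℝ} (hL : 0 ≤ L) : ∃ K : ℝ, ∀ (t : ℝ) (n : ℤ) (k : ℕ),
    hp t n - hp t (n - k) ≤ K - L * k := by
  obtain ⟨c, hc, hg⟩ := dr_growth
  obtain ⟨R, hR⟩ : ∃ R : ℕ, L ≤ c * ((R : ℝ) + 1) ^ 2 := by
    obtain ⟨R, hR⟩ := exists_nat_ge (L / c)
    refine ⟨R, ?_⟩
    rw [div_le_iff₀ hc] at hR
    have h1 : (R : ℝ) ≤ ((R : ℝ) + 1) ^ 2 := by nlinarith [Nat.cast_nonneg (α := ℝ) R]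
    nlinarith
  let m : ℤ → ℤ := fun z => max 0 (min (z + R + 1) (2 * R + 3))
  have hm0 : ∀ z, 0 ≤ m z := fun z => le_max_left _ _
  have hm1 : ∀ z, m z ≤ 2 * R + 3 := fun z => by
    change max 0 (min (z + R + 1) (2 * R + 3)) ≤ 2 * (R : ℤ) + 3
    omega
  have hms : ∀ z, m (z + 1) - m z = 1 ∨ (m (z + 1) - m z = 0 ∧ (z ≤ -R - 2 ∨ (R : ℤ) + 2 ≤ z)) := by
    intro z
    have e1 : m (z + 1) = max 0 (min (z + 1 + R + 1) (2 * R + 3)) := rfl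
    have e2 : m z = max 0 (min (z + R + 1) (2 * R + 3)) := rfl
    omega
  refine ⟨L * (2 * R + 3), fun t n k => ?_⟩
  have hanti : Antitone (fun z : ℤ => hp t z + L * z - L * m z) := by
    apply antitone_int_of_succ_le
    intro z
    have hz : hp t (z + 1) ≤ hp t z := hp_antitone t (by omega)
    rcases hms z with h | ⟨h, hz2⟩
    · have h1 : ((m (z + 1) : ℤ) : ℝ) = m z + 1 := by
        have : m (z + 1) = m z + 1 := by omega
        rw [this]; push_cast; ring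
      rw [h1]
      push_cast
      linarith
    · have h1 : ((m (z + 1) : ℤ) : ℝ) = m z := by
        have : m (z + 1) = m z := by omega
        rw [this]
      have h2 : hp t (z + 1) ≤ hp t z - L := by
        have hmono : ∀ j : ℕ, R ≤ j → L ≤ dr t j := fun j hj => by
          refine hR.trans (le_trans ?_ (hg t j))
          have : (R : ℝ) ≤ j := by exact_mod_cast hj
          gcongr
        unfold hp
        rcases hz2 with hz2 | hz2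
        · obtain ⟨j, hj⟩ : ∃ j : ℕ, z = -((j + 1 : ℕ) : ℤ) := ⟨(-z - 1).toNat, by omega⟩
          have e : z + 1 = -(j : ℤ) := by omega
          rw [e, hj, hh_neg_natCast, hh_neg_natCast, Finset.sum_range_succ]
          have h3 := (hmono j (by omega)).trans (dr_le_dl t j)
          linarith
        · obtain ⟨j, rfl⟩ := Int.eq_ofNat_of_zero_le (show 0 ≤ z by omega)
          have e : ((j : ℤ) + 1) = ((j + 1 : ℕ) : ℤ) := by push_cast; ring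
          rw [e, hh_natCast, hh_natCast, Finset.sum_range_succ]
          have h3 := hmono j (by omega)
          linarith
      rw [h1]
      push_cast
      linarith
  have h1 := hanti (show n - (k : ℤ) ≤ n by omega)
  simp only at h1
  have h2 : (0 : ℝ) ≤ m (n - k) := by exact_mod_cast hm0 _
  have h3 : ((m n : ℤ) : ℝ) ≤ 2 * R + 3 := by exact_mod_cast hm1 n
  have h4 : L * ((m n : ℤ) : ℝ) ≤ L * (2 * R + 3) := mul_le_mul_of_nonneg_left h3 hL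
  have h5 : 0 ≤ L * ((m (n - k) : ℤ) : ℝ) := mul_nonneg hL h2
  push_cast at h1
  linarith

/-- the powers of the example -/
theorem pow_formula {T : Hs →L[ℂ] Hs}
    (hT : ∀ ξ : Hs, ∀ᵐ t : ℝ, ∀ n : ℤ, (T ξ : ℝ × ℤ → ℂ) (t, n) =
      (Real.exp (hp t n - hp t (n - 1)) : ℂ) * (ξ : ℝ × ℤ → ℂ) (t, n - 1)) (k : ℕ) :
    ∀ ξ : Hs, ∀ᵐ t : ℝ, ∀ n : ℤ, ((T ^ k) ξ : ℝ × ℤ → ℂ) (t, n) =
      (Real.exp (hp t n - hp t (n - k)) : ℂ) * (ξ : ℝ × ℤ → ℂ) (t, n - k) := by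
  induction k with
  | zero =>
    intro ξ
    refine Filter.Eventually.of_forall fun t n => ?_
    simp
  | succ k ih =>
    intro ξ
    filter_upwards [hT ((T ^ k) ξ), ih ξ] with t h1 h2 n
    rw [pow_succ', ContinuousLinearMap.mul_apply, h1 n, h2 (n - 1)]
    have e : n - 1 - (k : ℤ) = n - ((k + 1 : ℕ) : ℤ) := by push_cast; ring
    rw [e, ← mul_assoc, ← Complex.ofReal_mul, ← Real.exp_add]
    congr 3
    ring

/-- the example is quasinilpotent -/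
theorem qn_of_formula {T : Hs →L[ℂ] Hs}
    (hT : ∀ ξ : Hs, ∀ᵐ t : ℝ, ∀ n : ℤ, (T ξ : ℝ × ℤ → ℂ) (t, n) =
      (Real.exp (hp t n - hp t (n - 1)) : ℂ) * (ξ : ℝ × ℤ → ℂ) (t, n - 1)) : QN T := by
  intro L hL
  obtain ⟨K, hK⟩ := hp_drop hL
  refine ⟨K, fun k ξ => ?_⟩
  let U : Hs →ₗᵢ[ℂ] Hs := Lp.compMeasurePreservingₗᵢ ℂ _ (mp_shift 0 k)
  have hU : (U ξ : ℝ × ℤ → ℂ) =ᵐ[mu] fun p => (ξ : ℝ × ℤ → ℂ) (p.1 - 0, p.2 - k) :=
    Lp.coeFn_compMeasurePreserving ξ (mp_shift 0 k)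
  have hUn : ‖U ξ‖ = ‖ξ‖ := U.norm_map ξ
  rw [← hUn]
  refine Lp.norm_le_mul_norm_of_ae_le_mul ?_
  have h1 := ae_mu_of (p := fun p : ℝ × ℤ => ((T ^ k) ξ : ℝ × ℤ → ℂ) p =
      (Real.exp (hp p.1 p.2 - hp p.1 (p.2 - k)) : ℂ) * (ξ : ℝ × ℤ → ℂ) (p.1, p.2 - k))
      (pow_formula hT k ξ)
  filter_upwards [h1, hU] with p h2 h3
  rw [h2, h3, sub_zero, norm_mul, Complex.norm_real, Real.norm_eq_abs, Real.abs_exp]
  exact mul_le_mul_of_nonneg_right (Real.exp_le_exp.2 (hK p.1 p.2 k)) (norm_nonneg _)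

/-- the quasinilpotent example -/
theorem example_qn : ∃ T : Hs →L[ℂ] Hs, TC T ∧ QN T := by
  obtain ⟨T, hT0⟩ := exists_op hp hp_measurable Set.univ MeasurableSet.univ 0 1 0 (by
    intro t _ n
    rw [sub_zero]
    have := hp_antitone t (show n - 1 ≤ n by omega)
    linarith)
  have hT : ∀ ξ : Hs, ∀ᵐ t : ℝ, ∀ n : ℤ, (T ξ : ℝ × ℤ → ℂ) (t, n) =
      (Real.exp (hp t n - hp t (n - 1)) : ℂ) * (ξ : ℝ × ℤ → ℂ) (t, n - 1) := by
    intro ξ
    filter_upwards [hT0 ξ] with t ht n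
    rw [ht n]
    simp
  exact ⟨T, ⟨ex_nonscalar hT, trans_of_formula hT⟩, qn_of_formula hT⟩

section

variable {H : Type*} [NormedAddCommGroup H] [InnerProductSpace ℂ H]

lemma QN.norm_pow_le {T : H →L[ℂ] H} (h : QN T) {L : ℝ} (hL : 0 ≤ L) :
    ∃ K : ℝ, ∀ k : ℕ, ‖T ^ k‖ ≤ Real.exp (K - L * k) := by
  obtain ⟨K, hK⟩ := h L hL
  exact ⟨K, fun k => ContinuousLinearMap.opNorm_le_bound _ (Real.exp_pos _).le (hK k)⟩

lemma QN.spectrum_eq [CompleteSpace H] [Nontrivial H] {T : H →L[ℂ] H} (h : QN T) :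
    spectrum ℂ T = {0} := by
  have hsub : spectrum ℂ T ⊆ {0} := by
    intro z hz
    by_contra hz0
    have hz1 : 0 < ‖z‖ := norm_pos_iff.2 hz0
    obtain ⟨K, hK⟩ := h.norm_pow_le (L := max 0 (Real.log (2 / ‖z‖))) (le_max_left _ _)
    set L := max 0 (Real.log (2 / ‖z‖)) with hL
    have h2 : 2 ≤ ‖z‖ * Real.exp L := by
      have h3 : 2 / ‖z‖ ≤ Real.exp L := by
        calc 2 / ‖z‖ = Real.exp (Real.log (2 / ‖z‖)) := (Real.exp_log (by positivity)).symm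
          _ ≤ Real.exp L := Real.exp_le_exp.2 (le_max_right _ _)
      rw [div_le_iff₀ hz1] at h3
      linarith
    have h4 : ∀ k : ℕ, (2 : ℝ) ^ k ≤ Real.exp K := by
      intro k
      have h5 : z ^ k ∈ spectrum ℂ (T ^ k) := spectrum.pow_mem_pow T k hz
      have h6 := (spectrum.norm_le_norm_of_mem h5).trans (hK k)
      rw [norm_pow] at h6
      calc (2 : ℝ) ^ k ≤ (‖z‖ * Real.exp L) ^ k := pow_le_pow_left₀ (by norm_num) h2 k
        _ = ‖z‖ ^ k * Real.exp (L * k) := by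
            rw [mul_pow, ← Real.exp_nat_mul]
            congr 2
            ring
        _ ≤ Real.exp (K - L * k) * Real.exp (L * k) :=
            mul_le_mul_of_nonneg_right h6 (Real.exp_pos _).le
        _ = Real.exp K := by rw [← Real.exp_add]; congr 1; ring
    obtain ⟨k, hk⟩ := pow_unbounded_of_one_lt (Real.exp K) (one_lt_two : (1 : ℝ) < 2)
    exact absurd (h4 k) (not_le.2 hk)
  have hne : (spectrum ℂ T).Nonempty := spectrum.nonempty T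
  exact hsub.antisymm (fun z hz => by
    obtain ⟨w, hw⟩ := hne
    have h1 := hsub hw
    rw [Set.mem_singleton_iff] at h1 hz
    rw [hz, ← h1]
    exact hw)

end

end Vale.Agent.P131.H856
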