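import Vale.Agent.P131.Bdl.B1
import Mathlib.LinearAlgebra.Dimension.Finite
import Mathlib.Algebra.Polynomial.Basis
import Mathlib.Analysis.Normed.Algebra.Spectrum

/-!
Operators with transitive commutant: powers of a vector are independent, similarity.
-/

namespace Vale.Agent.P131.H856

open Polynomial

variable {H : Type*} [NormedAddCommGroup H] [InnerProductSpace ℂ H]

/-- nonscalar operators with transitive commutant -/
def TC (T : H →L[ℂ] H) : Prop :=
  (∀ z : ℂ, T ≠ z • ContinuousLinearMap.id ℂ H) ∧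
    ∀ M : Submodule ℂ H, IsClosed (M : Set H) →
      (∀ A : H →L[ℂ] H, A ∘L T = T ∘L A → ∀ x ∈ M, A x ∈ M) → M = ⊥ ∨ M = ⊤

/-- there are no eigenvectors -/
lemma TC.no_eigen {T : H →L[ℂ] H} (h : TC T) {z : ℂ} {v : H} (hv : T v = z • v) : v = 0 := by
  let M : Submodule ℂ H := LinearMap.ker ((T - z • ContinuousLinearMap.id ℂ H : H →L[ℂ] H) : H →ₗ[ℂ] H)
  have hmem : ∀ x, x ∈ M ↔ T x = z • x := fun x => by
    change T x - z • x = 0 ↔ _
    rw [sub_eq_zero]
  have hM : IsClosed (M : Set H) := (T - z • ContinuousLinearMap.id ℂ H).isClosed_ker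
  rcases h.2 M hM (fun A hA x hx => by
      rw [hmem] at hx ⊢
      have h1 : T (A x) = A (T x) := by
        have := congrArg (fun B : H →L[ℂ] H => B x) hA
        simpa using this.symm
      rw [h1, hx, map_smul]) with h1 | h1
  · have h2 : v ∈ M := (hmem v).2 hv
    rw [h1, Submodule.mem_bot] at h2
    exact h2
  · exfalso
    refine h.1 z ?_
    ext x
    have h2 : x ∈ M := by rw [h1]; trivial
    rw [hmem] at h2
    simpa using h2

/-- nonzero polynomials in the operator are injective -/
lemma TC.aeval_ne {T : H →L[ℂ] H} (h : TC T) {x : H} (hx : x ≠ 0) :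
    ∀ (n : ℕ) (p : ℂ[X]), p.natDegree ≤ n → p ≠ 0 → (aeval T p) x ≠ 0 := by
  intro n
  induction n with
  | zero =>
    intro p hp h0
    rw [Polynomial.eq_C_of_natDegree_le_zero hp] at h0 ⊢
    rw [aeval_C]
    have hc : p.coeff 0 ≠ 0 := fun hc => h0 (by rw [hc, map_zero])
    simp [Algebra.algebraMap_eq_smul_one, hc, hx]
  | succ n ih =>
    intro p hp h0
    by_cases hd : p.natDegree = 0
    · exact ih p (by omega) h0
    · obtain ⟨z, hz⟩ := IsAlgClosed.exists_root p (by
        intro h1
        exact hd (natDegree_eq_of_degree_eq_some h1))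
      obtain ⟨q, rfl⟩ := dvd_iff_isRoot.2 hz
      have hq : q ≠ 0 := fun h1 => h0 (by rw [h1, mul_zero])
      have hdeg : q.natDegree ≤ n := by
        rw [natDegree_mul (X_sub_C_ne_zero z) hq, natDegree_X_sub_C] at hp
        omega
      have h1 := ih q hdeg hq
      intro h2
      refine h1 (h.no_eigen (z := z) ?_)
      rw [map_mul, map_sub, aeval_X, aeval_C] at h2
      have h3 : T ((aeval T q) x) - z • (aeval T q) x = 0 := by
        simpa [Algebra.algebraMap_eq_smul_one] using h2
      exact sub_eq_zero.1 h3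

/-- the orbit of a vector is linearly independent -/
lemma TC.linInd {T : H →L[ℂ] H} (h : TC T) {x : H} (hx : x ≠ 0) :
    LinearIndependent ℂ (fun j : ℕ => (T ^ j) x) := by
  let f : ℂ[X] →ₗ[ℂ] H :=
    { toFun := fun p => (aeval T p) x
      map_add' := fun p q => by simp
      map_smul' := fun c p => by simp }
  have hf : LinearMap.ker f = ⊥ := by
    rw [LinearMap.ker_eq_bot']
    intro p hp
    by_contra h0
    exact h.aeval_ne hx p.natDegree p le_rfl h0 hp
  have h1 := (Polynomial.basisMonomials ℂ).linearIndependent.map' f hf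
  have h2 : (f ∘ (Polynomial.basisMonomials ℂ)) = fun j : ℕ => (T ^ j) x := by
    funext j
    simp [f, Polynomial.coe_basisMonomials, aeval_monomial]
  rwa [h2] at h1

/-- similarity -/
lemma TC.conj {H' : Type*} [NormedAddCommGroup H'] [InnerProductSpace ℂ H']
    {T : H →L[ℂ] H} (h : TC T) (S : H ≃L[ℂ] H') :
    TC ((S : H →L[ℂ] H') ∘L T ∘L (S.symm : H' →L[ℂ] H)) := by
  refine ⟨fun z hz => h.1 z ?_, fun M hM hA => ?_⟩
  · ext x
    have h1 := congrArg (fun B : H' →L[ℂ] H' => S.symm (B (S x))) hz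
    simpa using h1
  · have hM' : IsClosed ((M.comap ((S : H →L[ℂ] H') : H →ₗ[ℂ] H') : Submodule ℂ H) : Set H) :=
      hM.preimage S.continuous
    rcases h.2 _ hM' (fun A hAT x hx => by
      have h1 : ((S : H →L[ℂ] H') ∘L A ∘L (S.symm : H' →L[ℂ] H))
          ∘L ((S : H →L[ℂ] H') ∘L T ∘L (S.symm : H' →L[ℂ] H))
          = ((S : H →L[ℂ] H') ∘L T ∘L (S.symm : H' →L[ℂ] H))
          ∘L ((S : H →L[ℂ] H') ∘L A ∘L (S.symm : H' →L[ℂ] H)) := by
        ext y
        have := congrArg (fun B : H →L[ℂ] H => S (B (S.symm y))) hAT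
        simpa using this
      have h2 := hA _ h1 (S x) hx
      simpa using h2) with h1 | h1
    · left
      rw [Submodule.eq_bot_iff] at h1 ⊢
      intro x hx
      have h2 : S.symm x = 0 := h1 _ (by
        change S (S.symm x) ∈ M
        simpa using hx)
      simpa using h2
    · right
      rw [Submodule.eq_top_iff'] at h1 ⊢
      intro x
      have h2 : S (S.symm x) ∈ M := h1 (S.symm x)
      simpa using h2

end Vale.Agent.P131.H856
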